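import Vale.Agent.P148.H70.Dual

/-!
# P148: bounds for the crossing probabilities of critical Voronoi percolation at every scale
-/

open Set MeasureTheory
open scoped ENNReal

namespace Vale.Agent.Results.P148.VoronoiCrossingBounds

open _root_.P148.H70

/-- Critical Voronoi percolation at scale `ε`, for every `ε > 0`.
(1) For every closed Jordan domain `D` and `2n` marked points of its boundary in cyclic order, the
sum of the crossing probabilities of the `2n` quads given by four consecutive marked points is at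
least `2`.
(2) If an isometry maps `D` onto itself and each of the `2n` boundary arcs onto the next one, each
of these probabilities is at least `1/n`, and the probability that the arcs `i` and `i+k+2` are
joined is at least `n^{-(k+1)}`.
(3) For all quads `Q` of all discs, `ℙ(C_ε(Q)) + ℙ(C_ε(Q*)) = 1`, where `Q*` is the dual quad, and
`αβ/2187 ≤ ℙ(C_ε(Q)) ≤ 1 - γδ/2187`, where `α`, `β` are the normalised lengths of the arcs `ab`
and `cd`, and `γ`, `δ` those of the arcs `bc` and `da`.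
(4) For the quads of a disc with `a`, `c` antipodal and `b`, `d` symmetric in the line `ac`, the
probability is exactly `1/2`. -/
theorem result {Ω : Type*} [MeasurableSpace Ω] {P : Measure Ω} [IsProbabilityMeasure P] {ε : ℝ}
    (hε : 0 < ε) {X : Ω → Set (ℂ × Bool)} (hX : IsPoissonProcess P (intensity ε) X) :
    (∀ (Φ : ℂ ≃ₜ ℂ) (n : ℕ) (θ : ℤ → ℝ), 2 ≤ n → Marks n θ →
      2 ≤ ∑ i ∈ Finset.range (2 * n),
        crossProb P X Φ (θ i) (θ (i + 1)) (θ (i + 2)) (θ (i + 3))) ∧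
    (∀ (Φ : ℂ ≃ₜ ℂ) (n : ℕ) (θ : ℤ → ℝ) (T : ℂ ≃ᵢ ℂ), 2 ≤ n → Marks n θ →
      T '' (Φ '' Metric.closedBall 0 1) = Φ '' Metric.closedBall 0 1 →
      (∀ i, T '' (Φ '' (cis '' Icc (θ i) (θ (i + 1)))) =
        Φ '' (cis '' Icc (θ (i + 1)) (θ (i + 2)))) →
      ∀ (i : ℤ) (k : ℕ), (n : ℝ≥0∞)⁻¹ ^ (k + 1) ≤
        crossProb P X Φ (θ i) (θ (i + 1)) (θ (i + k + 2)) (θ (i + k + 3))) ∧
    (∀ (z₀ : ℂ) (r : ℝ), 0 < r → ∀ a b c d : ℝ, a < b → b < c → c < d → d < a + 2 * Real.pi →
      crossProb P X (fun w => z₀ + r * w) a b c d +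
        crossProb P X (fun w => z₀ + r * w) b c d (a + 2 * Real.pi) = 1 ∧
      ENNReal.ofReal (((b - a) / (2 * Real.pi)) * ((d - c) / (2 * Real.pi)) / 2187) ≤
        crossProb P X (fun w => z₀ + r * w) a b c d ∧
      crossProb P X (fun w => z₀ + r * w) a b c d ≤ 1 - ENNReal.ofReal
        (((c - b) / (2 * Real.pi)) * ((a + 2 * Real.pi - d) / (2 * Real.pi)) / 2187)) ∧
    (∀ (z₀ : ℂ) (r : ℝ), 0 < r → ∀ φ s : ℝ, 0 < s → s < Real.pi →
      crossProb P X (fun w => z₀ + r * w) φ (φ + s) (φ + Real.pi) (φ + 2 * Real.pi - s) =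
        2⁻¹) := by
  refine ⟨fun Φ n θ hn hθ => sum_ge_two hε hX Φ hn hθ, ?_, ?_, ?_⟩
  · intro Φ n θ T hn hθ h1 h2 i k
    have h3 : ∀ i, T '' barc Φ θ i = barc Φ θ (i + 1) := by
      intro i
      unfold barc uarc
      rw [h2, show i + 1 + 1 = i + 2 by ring]
    have := chain_ge hε hX Φ hn hθ T h1 h3 i k
    unfold barc uarc at this
    rw [show i + (k : ℤ) + 2 + 1 = i + k + 3 by ring] at this
    exact this
  · intro z₀ r hr a b c d h1 h2 h3 h4
    exact ⟨disc_dual hε hX z₀ hr h1 h2 h3 h4, arcs_ge hε hX z₀ hr.ne' h1 h2 h3 h4,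
      disc_upper hε hX z₀ hr h1 h2 h3 h4⟩
  · intro z₀ r hr φ s h0 h1
    exact kite hε hX z₀ hr φ h0 h1

end Vale.Agent.Results.P148.VoronoiCrossingBounds
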